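import Vale.Agent.P297.H2.Pres
import Vale.Agent.P297.Gen.H878.Global
import Vale.Agent.P297.H600.Big

/-!
Bounded torsion suffices: on an integral proper scheme over `ℂ` the differences of closed points
lie in a group of zero-cycles that contains the rationally trivial ones as soon as their multiples
by one positive integer do.
-/

set_option linter.unusedSectionVars false
set_option linter.style.haveILetI false

open CategoryTheory AlgebraicGeometry IntermediateField Polynomial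

namespace Vale.Agent.P297.H2

open Vale.Agent.P297

section

variable {S : Scheme.{0}} (f : S ⟶ Spec (.of ℂ)) [IsProper f] {C' : Type} [CommRing C']
  [Algebra ℂ C'] (j : Spec (.of C') ⟶ S)
  (hj : j ≫ f = Spec.map (CommRingCat.ofHom (algebraMap ℂ C')))

/-- The class of the center of a place, as a homomorphism from the divisors of the curve. -/
theorem exists_cls (n : ℤ) (R : AddSubgroup (ZeroCycle S)) (hR : Rat f ≤ R)
    (hRn : ∀ u v : closedPoints S,
      n • (Finsupp.single u (1 : ℤ) - Finsupp.single v 1) ∈ R)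
    {E : Type} [Field E] [Algebra ℂ E] [IsFF ℂ E] (κ : C' →ₐ[ℂ] E) :
    ∃ A : (PlaceOver ℂ E →₀ ℤ) →+ (ZeroCycle S ⧸ R), (∀ F : E, A (div ℂ F) = 0) ∧
      (∀ w w' : PlaceOver ℂ E, n • A (Finsupp.single w 1) =
        n • A (Finsupp.single w' 1)) ∧
      ∀ (w : PlaceOver ℂ E) (hw : ∀ c, κ c ∈ w.1.ring) (χ : C' →ₐ[ℂ] ℂ),
        (∀ c, evalAt w ⟨κ c, hw c⟩ = χ c) →
        A (Finsupp.single w 1) = QuotientAddGroup.mk' R (Finsupp.single (pt f j hj χ) (1 : ℤ)) := by
  classical
  let γ : Spec (.of E) ⟶ S := Spec.map (CommRingCat.ofHom κ.toRingHom) ≫ j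
  have hγ : γ ≫ f = Spec.map (CommRingCat.ofHom (algebraMap ℂ E)) := by
    change (Spec.map (CommRingCat.ofHom κ.toRingHom) ≫ j) ≫ f = _
    rw [Category.assoc, hj, ← Spec.map_comp, ← CommRingCat.ofHom_comp]
    have h1 : κ.toRingHom.comp (algebraMap ℂ C') = algebraMap ℂ E :=
      RingHom.ext fun a => κ.commutes a
    rw [h1]
  let A' : (PlaceOver ℂ E →₀ ℤ) →+ (ZeroCycle S ⧸ R) :=
    (QuotientAddGroup.mk' R).comp (Finsupp.mapDomain.addMonoidHom (centerMap f γ hγ))
  have hA' : ∀ z, A' z = QuotientAddGroup.mk' R (Finsupp.mapDomain (centerMap f γ hγ) z) :=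
    fun z => rfl
  refine ⟨A', ?_, ?_, ?_⟩
  · intro F
    rw [hA']
    exact (QuotientAddGroup.eq_zero_iff _).2 (hR (pushDiv_mem_Rat f γ hγ F))
  · intro w w'
    rw [← map_zsmul, ← map_zsmul, ← sub_eq_zero, ← map_sub, ← smul_sub, map_zsmul, hA',
      Finsupp.mapDomain_sub, Finsupp.mapDomain_single, Finsupp.mapDomain_single, ← map_zsmul]
    exact (QuotientAddGroup.eq_zero_iff _).2 (hRn _ _)
  · intro w hw χ hχ
    rw [hA', Finsupp.mapDomain_single]
    congr 2
    exact centerMap_eq_cpt f γ hγ w j κ.toRingHom rfl hw χ.toRingHom hχ (pt_aux f _ hj _)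

end

/-- **Bounded torsion suffices.** -/
theorem sub_mem_of_nsmul {S : Scheme.{0}} [IsIntegral S] (f : S ⟶ Spec (.of ℂ)) [IsProper f]
    {n : ℕ} (hn : n ≠ 0) (R : AddSubgroup (ZeroCycle S)) (hR : Rat f ≤ R)
    (hRn : ∀ u v : closedPoints S,
      (n : ℤ) • (Finsupp.single u (1 : ℤ) - Finsupp.single v 1) ∈ R) (x y : closedPoints S) :
    Finsupp.single x (1 : ℤ) - Finsupp.single y 1 ∈ R := by
  obtain ⟨U, hU, hxU, -⟩ := exists_isAffineOpen_mem_and_subset (X := S) (x := genericPoint S)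
    (U := ⊤) trivial
  haveI : Nonempty U := ⟨⟨genericPoint S, hxU⟩⟩
  letI := chartAlg f hU
  haveI := chart_finiteType f hU
  obtain ⟨d, x', θ, h, hh, F, hFm, hFi, hF, hC⟩ := exists_pres Γ(S, U)
  let ι : Γ(S, U) →ₐ[ℂ] FractionRing Γ(S, U) :=
    IsScalarTower.toAlgHom ℂ Γ(S, U) (FractionRing Γ(S, U))
  have hι : Function.Injective ι := IsFractionRing.injective Γ(S, U) (FractionRing Γ(S, U))
  have h1 := Gen.global_of_generic' f hU 1 R hR ι hι (algL x' θ h hh) (algL_fg x' θ h hh) hC ?_ x y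
  · rwa [one_smul] at h1
  intro ξ₁ ξ₂
  rw [one_smul]
  have h2 := const_of_curves x' θ h hh F (fun u => (hF u).1) hFm hFi ((hF F).2 dvd_rfl)
    (fun ξ => QuotientAddGroup.mk' R (Finsupp.single (pt f hU.fromSpec (chart_hj f hU)
      (ξ.comp (ι.codRestrict (algL x' θ h hh) hC))) (1 : ℤ))) ?_ ξ₁ ξ₂
  · rw [← sub_eq_zero, ← map_sub] at h2
    exact (QuotientAddGroup.eq_zero_iff _).1 h2
  intro E _ _ _ m ξ₁ ξ₂ w₁ w₂ hw₁ hw₂ he₁ he₂
  obtain ⟨A, hA, hAn, hAc⟩ := exists_cls f hU.fromSpec (chart_hj f hU) n R hR hRn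
    (m.comp (ι.codRestrict (algL x' θ h hh) hC))
  have h3 := nprop hn A hA hAn w₁ w₂
  rw [hAc w₁ (fun c => hw₁ _) (ξ₁.comp (ι.codRestrict (algL x' θ h hh) hC)) (fun c => he₁ _),
    hAc w₂ (fun c => hw₂ _) (ξ₂.comp (ι.codRestrict (algL x' θ h hh) hC)) (fun c => he₂ _)] at h3
  exact h3

/-- **Integrality is free.** -/
theorem ratEquiv_of_nsmul {S : Scheme.{0}} [IsIntegral S] (f : S ⟶ Spec (.of ℂ)) [IsProper f]
    {n : ℕ} (hn : n ≠ 0)
    (hRn : ∀ u v : closedPoints S,
      (n : ℤ) • (Finsupp.single u (1 : ℤ) - Finsupp.single v 1) ∈ Rat f) (x y : ClosedPt S) :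
    RatEquiv f x y :=
  sub_mem_of_nsmul f hn (Rat f) le_rfl hRn x y

/-- **Integral criterion.** A nonzero multiple of an embedding of the function field in an
algebraically closed field that is a combination of cycles defined over purely transcendental
fields gives the rational equivalence of all points. -/
theorem pointsEquivalent_of_stable {K Ω : Type} [Field K] [Algebra ℂ K] [Field Ω] [Algebra ℂ Ω]
    [IsAlgClosed Ω] (m : K →ₐ[ℂ] Ω) {n : ℤ} (hn : n ≠ 0)
    (h : Finsupp.single m n ∈ H729.stableRelations K Ω) : H839.PointsEquivalent K := by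
  intro S _ f _ hS x y
  refine ratEquiv_of_nsmul f (n := n.natAbs) (Int.natAbs_ne_zero.2 hn) (fun u v => ?_) x y
  have h1 := H600.criterion_big m n h f hS u v
  rcases Int.natAbs_eq n with h2 | h2
  · rw [h2] at h1
    exact h1
  · have h3 := (Rat f).neg_mem h1
    rw [← neg_smul] at h3
    have h4 : -n = (n.natAbs : ℤ) := by omega
    rw [h4] at h3
    exact h3

end Vale.Agent.P297.H2
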