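import Vale.Agent.P297.H2.Interp

/-!
A finite cover of an open part of affine space whose total space is irreducible: a function on
it that is constant on every irreducible component of every line section is constant.
-/

open Polynomial

namespace Vale.Agent.P297.H2

open scoped Classical in
/-- the product of the `X - τ` over the roots `τ` of `Q` satisfying a predicate -/
noncomputable def filt (p : ℂ → Prop) (Q : ℂ[X]) : ℂ[X] :=
  ((Q.roots.filter p).map fun τ => X - C τ).prod

theorem filt_mul (p : ℂ → Prop) {Q R : ℂ[X]} (hQ : Q ≠ 0) (hR : R ≠ 0) :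
    filt p (Q * R) = filt p Q * filt p R := by
  rw [filt, roots_mul (mul_ne_zero hQ hR), Multiset.filter_add, Multiset.map_add,
    Multiset.prod_add]
  rfl

theorem prod_roots {Q : ℂ[X]} (hQ : Q.Monic) : (Q.roots.map fun τ => X - C τ).prod = Q := by
  have h := (IsAlgClosed.splits Q).eq_prod_roots
  rw [hQ.leadingCoeff, C_1, one_mul] at h
  exact h.symm

theorem filt_all {p : ℂ → Prop} {Q : ℂ[X]} (hQ : Q.Monic) (h : ∀ τ, Q.IsRoot τ → p τ) :
    filt p Q = Q := by
  classical
  rw [filt, Multiset.filter_eq_self.2, prod_roots hQ]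
  intro τ hτ
  exact h τ ((mem_roots hQ.ne_zero).1 hτ)

theorem filt_none {p : ℂ → Prop} {Q : ℂ[X]} (hQ : Q ≠ 0) (h : ∀ τ, Q.IsRoot τ → ¬ p τ) :
    filt p Q = 1 := by
  classical
  rw [filt, Multiset.filter_eq_nil.2]
  · simp
  · intro τ hτ
    exact h τ ((mem_roots hQ).1 hτ)

theorem filt_dvd (p : ℂ → Prop) {Q : ℂ[X]} (hQ : Q.Monic) : filt p Q ∣ Q := by
  classical
  conv_rhs => rw [← prod_roots hQ]
  exact Multiset.prod_dvd_prod_of_le (Multiset.map_le_map (Multiset.filter_le _ _))

theorem filt_monic (p : ℂ → Prop) (Q : ℂ[X]) : (filt p Q).Monic := by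
  classical
  exact monic_multiset_prod_of_monic _ _ fun τ _ => monic_X_sub_C τ

theorem natDegree_filt (p : ℂ → Prop) (Q : ℂ[X]) :
    (filt p Q).natDegree = by classical exact (Q.roots.filter p).card := by
  classical
  rw [filt, natDegree_multiset_prod_X_sub_C_eq_card]

/-- a nonunit monic polynomial over a domain has a monic irreducible factor -/
theorem exists_monic_irreducible {Q : ℂ[X][X]} (hQ : Q.Monic) (h : Q.natDegree ≠ 0) :
    ∃ G Q' : ℂ[X][X], G.Monic ∧ Irreducible G ∧ Q'.Monic ∧ Q = G * Q' ∧ G.natDegree ≠ 0 := by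
  have hu : ¬ IsUnit Q := fun hu => h (by
    rw [hQ.eq_one_of_isUnit hu, natDegree_one])
  obtain ⟨G, hG, Q', hQ'⟩ := WfDvdMonoid.exists_irreducible_factor hu hQ.ne_zero
  have hl : G.leadingCoeff * Q'.leadingCoeff = 1 := by
    rw [← leadingCoeff_mul, ← hQ', hQ.leadingCoeff]
  have hl' : Q'.leadingCoeff * G.leadingCoeff = 1 := by rw [mul_comm, hl]
  have hu1 : IsUnit (C Q'.leadingCoeff : ℂ[X][X]) :=
    (IsUnit.of_mul_eq_one _ hl').map C
  have hm : (C Q'.leadingCoeff * G).Monic := by
    rw [Monic, leadingCoeff_mul, leadingCoeff_C, hl']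
  have hm' : (C G.leadingCoeff * Q').Monic := by
    rw [Monic, leadingCoeff_mul, leadingCoeff_C, hl]
  have hi : Irreducible (C Q'.leadingCoeff * G) := (irreducible_isUnit_mul hu1).2 hG
  refine ⟨C Q'.leadingCoeff * G, C G.leadingCoeff * Q', hm, hi, hm', ?_, ?_⟩
  · rw [hQ']
    calc G * Q' = C (Q'.leadingCoeff * G.leadingCoeff) * (G * Q') := by rw [hl', C_1, one_mul]
      _ = _ := by rw [C_mul]; ring
  · intro h0
    exact hi.not_isUnit (by rw [hm.natDegree_eq_zero.1 h0]; exact isUnit_one)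

theorem exists_line {Q : ℂ[X][X]} (hQ : Q.Monic) (S : Set ℂ) (p : ℂ → ℂ → Prop)
    (h : ∀ G : ℂ[X][X], G.Monic → Irreducible G → G ∣ Q → ∀ t ∈ S, ∀ t' ∈ S, ∀ τ τ',
      (G.map (evalRingHom t)).IsRoot τ → (G.map (evalRingHom t')).IsRoot τ' → p t τ → p t' τ') :
    ∃ G : ℂ[X][X], G.Monic ∧ G ∣ Q ∧
      ∀ t ∈ S, G.map (evalRingHom t) = filt (p t) (Q.map (evalRingHom t)) := by
  induction hn : Q.natDegree using Nat.strong_induction_on generalizing Q with
  | _ n ih =>
    by_cases h0 : Q.natDegree = 0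
    · have h1 : Q = 1 := hQ.natDegree_eq_zero.1 h0
      refine ⟨1, monic_one, one_dvd _, fun t _ => ?_⟩
      rw [h1, Polynomial.map_one]
      simp [filt]
    · obtain ⟨G, Q', hG, hGi, hQ', hQG, hG0⟩ := exists_monic_irreducible hQ h0
      have hd : Q.natDegree = G.natDegree + Q'.natDegree := by
        rw [hQG, hG.natDegree_mul hQ']
      obtain ⟨H, hH, hHd, hHt⟩ := ih Q'.natDegree (by omega) hQ' (fun G' h1 h2 h3 =>
        h G' h1 h2 (h3.trans (hQG ▸ Dvd.intro_left G rfl))) rfl
      have hGQ : G ∣ Q := hQG ▸ Dvd.intro Q' rfl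
      have hsplit : ∀ t, filt (p t) (Q.map (evalRingHom t)) =
          filt (p t) (G.map (evalRingHom t)) * filt (p t) (Q'.map (evalRingHom t)) := by
        intro t
        rw [hQG, Polynomial.map_mul, filt_mul _ (hG.map _).ne_zero (hQ'.map _).ne_zero]
      by_cases hc : ∃ t ∈ S, ∃ τ, (G.map (evalRingHom t)).IsRoot τ ∧ p t τ
      · obtain ⟨t₀, ht₀, τ₀, hτ₀, hp₀⟩ := hc
        refine ⟨G * H, hG.mul hH, ?_, fun t ht => ?_⟩
        · rw [hQG]
          exact mul_dvd_mul_left G hHd
        · rw [hsplit, Polynomial.map_mul, hHt t ht, filt_all (hG.map _)]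
          intro τ hτ
          exact h G hG hGi hGQ t₀ ht₀ t ht τ₀ τ hτ₀ hτ hp₀
      · push Not at hc
        refine ⟨H, hH, ?_, fun t ht => ?_⟩
        · rw [hQG]
          exact Dvd.dvd.mul_left hHd G
        · rw [hsplit, hHt t ht, filt_none (hG.map _).ne_zero (hc t ht), one_mul]

/-- **Connectivity.** -/
theorem conn {d : ℕ} {V : Type*} {F : (MvPolynomial (Fin d) ℂ)[X]} (hF : F.Monic)
    (hirr : Irreducible F) {h : MvPolynomial (Fin d) ℂ} (h0 : h ≠ 0) (c : (Fin d → ℂ) → ℂ → V)
    (hline : ∀ a v : Fin d → ℂ, v ≠ 0 → ∀ G : ℂ[X][X], G.Monic → Irreducible G →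
      G ∣ F.map (lineHom a v).toRingHom → ∀ t t' τ τ' : ℂ,
      MvPolynomial.eval (a + t • v) h ≠ 0 → MvPolynomial.eval (a + t' • v) h ≠ 0 →
      (G.map (evalRingHom t)).IsRoot τ → (G.map (evalRingHom t')).IsRoot τ' →
      c (a + t • v) τ = c (a + t' • v) τ')
    {a a' : Fin d → ℂ} {τ τ' : ℂ} (ha : MvPolynomial.eval a h ≠ 0)
    (ha' : MvPolynomial.eval a' h ≠ 0) (hτ : (F.map (MvPolynomial.eval a)).IsRoot τ)
    (hτ' : (F.map (MvPolynomial.eval a')).IsRoot τ') : c a τ = c a' τ' := by
  classical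
  set v₀ := c a τ with hv₀
  let Fv : (Fin d → ℂ) → ℂ[X] := fun b =>
    filt (fun σ => c b σ = v₀) (F.map (MvPolynomial.eval b))
  have hmap : ∀ (b v : Fin d → ℂ) (t : ℂ),
      (F.map (lineHom b v).toRingHom).map (evalRingHom t) =
        F.map (MvPolynomial.eval (b + t • v)) := by
    intro b v t
    rw [Polynomial.map_map]
    congr 1
    exact RingHom.ext fun x => eval_lineHom b v x t
  -- the polynomial on a line
  have hL : ∀ b v : Fin d → ℂ, v ≠ 0 → ∃ G : ℂ[X][X], G.Monic ∧
      G ∣ F.map (lineHom b v).toRingHom ∧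
      ∀ t : ℂ, MvPolynomial.eval (b + t • v) h ≠ 0 →
        G.map (evalRingHom t) = Fv (b + t • v) := by
    intro b v hv
    obtain ⟨G, hG, hGd, hGt⟩ := exists_line (Q := F.map (lineHom b v).toRingHom) (hF.map _)
      {t | MvPolynomial.eval (b + t • v) h ≠ 0} (fun t σ => c (b + t • v) σ = v₀)
      (fun G h1 h2 h3 t ht t' ht' σ σ' hσ hσ' hp => by
        rw [← hline b v hv G h1 h2 h3 t t' σ σ' ht ht' hσ hσ', hp])
    refine ⟨G, hG, hGd, fun t ht => ?_⟩
    rw [hGt t ht, hmap]
  -- the degree is constant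
  have hdeg : ∀ b b' : Fin d → ℂ, MvPolynomial.eval b h ≠ 0 → MvPolynomial.eval b' h ≠ 0 →
      (Fv b).natDegree = (Fv b').natDegree := by
    intro b b' hb hb'
    by_cases hbb : b = b'
    · rw [hbb]
    · obtain ⟨G, hG, -, hGt⟩ := hL b (b' - b) (sub_ne_zero.2 (Ne.symm hbb))
      have h1 := hGt 0 (by rwa [zero_smul, add_zero])
      have h2 := hGt 1 (by rwa [one_smul, add_sub_cancel])
      rw [zero_smul, add_zero] at h1
      rw [one_smul, add_sub_cancel] at h2
      rw [← h1, ← h2, hG.natDegree_map, hG.natDegree_map]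
  -- the coefficients are polynomials
  let D : ℕ := F.support.sup fun i => (F.coeff i).totalDegree
  have hD : ∀ (b v : Fin d → ℂ) (i : ℕ),
      ((F.map (lineHom b v).toRingHom).coeff i).natDegree ≤ D := by
    intro b v i
    rw [coeff_map]
    by_cases hi : i ∈ F.support
    · exact (natDegree_lineHom_le b v _).trans
        (Finset.le_sup (f := fun i => (F.coeff i).totalDegree) hi)
    · rw [notMem_support_iff.1 hi, map_zero, natDegree_zero]
      exact Nat.zero_le _
  have hcoef : ∀ i : ℕ, ∃ g : MvPolynomial (Fin d) ℂ, ∀ b, MvPolynomial.eval b h ≠ 0 →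
      (Fv b).coeff i = MvPolynomial.eval b g := by
    intro i
    refine interp D h0 (f := fun b => (Fv b).coeff i) ?_
    intro b v
    by_cases hv : v = 0
    · refine ⟨C ((Fv b).coeff i), by rw [natDegree_C]; exact Nat.zero_le _, fun t _ => ?_⟩
      rw [hv, smul_zero, add_zero, eval_C]
    · obtain ⟨G, -, hGd, hGt⟩ := hL b v hv
      refine ⟨G.coeff i, natDegree_coeff_le_of_dvd (hF.map _).ne_zero hGd (hD b v) i,
        fun t ht => ?_⟩
      change (Fv (b + t • v)).coeff i = _
      rw [← hGt t ht, coeff_map]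
      rfl
  choose g hg using hcoef
  -- the factor
  set m := (Fv a).natDegree with hm
  let G : (MvPolynomial (Fin d) ℂ)[X] := X ^ m + ∑ i ∈ Finset.range m, C (g i) * X ^ i
  have hGs : (∑ i ∈ Finset.range m, C (g i) * X ^ i : (MvPolynomial (Fin d) ℂ)[X]).degree <
      (m : WithBot ℕ) := by
    rw [Finset.sum_range]
    exact degree_sum_fin_lt fun i : Fin m => g i
  have hGm : G.Monic := monic_X_pow_add hGs
  have hGd : G.natDegree = m := by
    have h1 : G.degree = (m : WithBot ℕ) := by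
      rw [degree_add_eq_left_of_degree_lt (by rwa [degree_X_pow]), degree_X_pow]
    exact natDegree_eq_of_degree_eq_some h1
  have hGe : ∀ b, MvPolynomial.eval b h ≠ 0 → G.map (MvPolynomial.eval b) = Fv b := by
    intro b hb
    have hmb : (Fv b).natDegree = m := hdeg b a hb ha
    have h1 : (Fv b).Monic := filt_monic _ _
    rw [h1.as_sum, hmb]
    simp only [G, Polynomial.map_add, Polynomial.map_pow, Polynomial.map_X, Polynomial.map_sum,
      Polynomial.map_mul, Polynomial.map_C]
    congr 1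
    refine Finset.sum_congr rfl fun i _ => ?_
    rw [hg i b hb]
  have hGF : G ∣ F := by
    rw [← modByMonic_eq_zero_iff_dvd hGm]
    ext1 i
    rw [coeff_zero]
    have h1 : (F %ₘ G).coeff i * h = 0 := by
      apply MvPolynomial.funext
      intro b
      rw [map_mul, map_zero]
      by_cases hb : MvPolynomial.eval b h = 0
      · rw [hb, mul_zero]
      · have h2 : ((F %ₘ G).map (MvPolynomial.eval b)) = 0 := by
          rw [map_modByMonic _ hGm, hGe b hb, modByMonic_eq_zero_iff_dvd (filt_monic _ _)]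
          exact filt_dvd _ (hF.map _)
        have h3 := congrArg (fun q => q.coeff i) h2
        simp only [coeff_map, coeff_zero] at h3
        rw [h3, zero_mul]
    rcases mul_eq_zero.1 h1 with h2 | h2
    · exact h2
    · exact absurd h2 h0
  have hm0 : m ≠ 0 := by
    intro h1
    have h2 : Fv a = 1 := (filt_monic _ _).natDegree_eq_zero.1 h1
    have h3 : τ ∈ (F.map (MvPolynomial.eval a)).roots.filter (fun σ => c a σ = v₀) :=
      Multiset.mem_filter.2 ⟨(mem_roots (hF.map _).ne_zero).2 hτ, rfl⟩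
    have h4 : (X - C τ) ∣ Fv a := by
      refine Multiset.dvd_prod ?_
      refine Multiset.mem_map.2 ⟨τ, ?_, rfl⟩
      convert h3
    rw [h2] at h4
    exact (irreducible_X_sub_C τ).not_isUnit (isUnit_of_dvd_one h4)
  have hFG : F = G := by
    obtain ⟨R, hR⟩ := hGF
    rcases hirr.isUnit_or_isUnit hR with h1 | h1
    · exact absurd (by rw [← hGd, hGm.eq_one_of_isUnit h1, natDegree_one]) hm0
    · have h2 : R.Monic := by
        refine hGm.of_mul_monic_left ?_
        rw [← hR]
        exact hF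
      rw [hR, h2.eq_one_of_isUnit h1, mul_one]
  have h5 : (X - C τ') ∣ Fv a' := by
    rw [← hGe a' ha', ← hFG]
    exact dvd_iff_isRoot.2 hτ'
  have h6 : τ' ∈ ((F.map (MvPolynomial.eval a')).roots.filter (fun σ => c a' σ = v₀)) := by
    have h7 : (Fv a').IsRoot τ' := dvd_iff_isRoot.1 h5
    have h8 : (Fv a').roots = (F.map (MvPolynomial.eval a')).roots.filter
        (fun σ => c a' σ = v₀) := by
      change (filt _ _).roots = _
      rw [filt, roots_multiset_prod_X_sub_C]
    rw [← h8]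
    exact (mem_roots (filt_monic _ _).ne_zero).2 h7
  exact (Multiset.mem_filter.1 h6).2.symm

end Vale.Agent.P297.H2
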