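import Vale.Agent.P025.R2.H816.Pic
import Vale.Agent.P297.H572.Half.Tower
import Vale.Agent.P297.H72.Third

/-!
The divisor class group of degree zero of a function field of one variable over `ℂ` is divisible
(`P025H816.pic0_div`), in the language of places of this folder: the properties `HalfProp` and
`ThirdProp` hold for every function field.
-/

set_option linter.unusedSectionVars false

open IntermediateField

namespace Vale.Agent.P297.H2

open Vale.Agent.P297

section

variable {E : Type} [Field E] [Algebra ℂ E] [IsFF ℂ E]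

variable (E) in
theorem cff : Vale.Agent.P019P.CFF ℂ E where
  ac := inferInstance
  ex := by
    obtain ⟨t, ht⟩ := IsFF.exists_transcendental (k := ℂ) (E := E)
    exact ⟨t, ht, IsFF.finiteDimensional ht⟩

/-- the order at a place, in the other language -/
theorem isOrd (w : PlaceOver ℂ E) : Vale.Agent.P019P.IsOrd w.1.ring w.1.ord where
  zero := w.1.ord_zero
  mul x y hx hy := w.1.ord_mul hx hy
  add x y hx hy hxy := w.1.min_ord_le_add hx hy hxy
  mem x := by
    by_cases hx : x = 0
    · subst hx
      exact ⟨fun _ => Or.inl rfl, fun _ => w.1.ring.zero_mem⟩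
    · rw [← w.1.ord_nonneg_iff hx]
      exact ⟨fun h => Or.inr h, fun h => h.resolve_left hx⟩
  one := by
    obtain ⟨x, -, hx⟩ := w.1.exists_ord_eq_one
    exact ⟨x, hx⟩

/-- the place of the other language -/
def toPlk (w : PlaceOver ℂ E) : Vale.Agent.P019P.Plk ℂ E := ⟨w.1.ring, w.2, w.1.ring_ne_top⟩

theorem toPlk_bij : Function.Bijective (toPlk (E := E)) := by
  constructor
  · intro w w' h
    have h1 : w.1.ring = w'.1.ring := congrArg Subtype.val h
    exact Subtype.ext (Place.ext' h1)
  · intro P
    obtain ⟨w, hw⟩ := exists_place (k := ℂ) P.1 P.2.1 P.2.2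
    exact ⟨⟨w, fun a => by rw [hw]; exact P.2.1 a⟩, Subtype.ext hw⟩

theorem ord_toPlk (w : PlaceOver ℂ E) (x : E) :
    haveI := cff E
    Vale.Agent.P019P.ord (toPlk w) x = w.1.ord x := by
  haveI := cff E
  exact congrFun ((Vale.Agent.P019P.ord_spec (toPlk w)).unique (isOrd w)) x

/-- **The group of divisor classes of degree zero is divisible.** -/
theorem exists_div_eq {n : ℕ} (hn : n ≠ 0) (z : PlaceOver ℂ E →₀ ℤ) (hz : deg z = 0) :
    ∃ (g : E) (y : PlaceOver ℂ E →₀ ℤ), g ≠ 0 ∧ deg y = 0 ∧ div ℂ g = z - (n : ℤ) • y := by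
  haveI := cff E
  let e : PlaceOver ℂ E ≃ Vale.Agent.P019P.Plk ℂ E := Equiv.ofBijective toPlk toPlk_bij
  have hdg : ∀ {α : Type} (u : α →₀ ℤ), Vale.Agent.P019P.dg u = deg u := fun u => rfl
  obtain ⟨g, y, hg, hy, h⟩ := P025H816.exists_dv (k := ℂ) (F := E) (n := n)
    (by exact_mod_cast hn) (D := Finsupp.mapDomain e z) (by
      rw [hdg, deg_mapDomain, hz])
  refine ⟨g, Finsupp.mapDomain e.symm y, hg, ?_, ?_⟩
  · rw [deg_mapDomain, ← hdg, hy]
  · ext w
    have h1 := DFunLike.congr_fun h (e w)
    rw [Vale.Agent.P019P.dv_apply, Finsupp.sub_apply, Finsupp.smul_apply,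
      Finsupp.mapDomain_apply e.injective] at h1
    have h2 : Vale.Agent.P019P.ord (e w) g = w.1.ord g := ord_toPlk w g
    rw [h2] at h1
    have h3 : Finsupp.mapDomain e.symm y w = y (e w) := by
      conv_lhs => rw [← e.symm_apply_apply w]
      rw [Finsupp.mapDomain_apply e.symm.injective]
    rw [div_apply, h1, Finsupp.sub_apply, Finsupp.smul_apply, h3, nsmul_eq_mul, zsmul_eq_mul]
    rfl

/-- a function on places whose `n`-th multiple is constant, on divisors -/
theorem nsmul_eq_deg {Q : Type} [AddCommGroup Q] (A : (PlaceOver ℂ E →₀ ℤ) →+ Q) (n : ℤ)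
    (h : ∀ w w' : PlaceOver ℂ E, n • A (Finsupp.single w 1) = n • A (Finsupp.single w' 1))
    (w₀ : PlaceOver ℂ E) (z : PlaceOver ℂ E →₀ ℤ) :
    n • A z = deg z • (n • A (Finsupp.single w₀ 1)) := by
  induction z using Finsupp.induction_linear with
  | zero => rw [map_zero, map_zero, smul_zero, zero_smul]
  | add z₁ z₂ h₁ h₂ => rw [map_add, map_add, smul_add, h₁, h₂, add_smul]
  | single w m =>
    have h1 : Finsupp.single w m = m • Finsupp.single w (1 : ℤ) := by
      rw [Finsupp.smul_single, smul_eq_mul, mul_one]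
    rw [h1, map_zsmul, map_zsmul, deg_single, smul_eq_mul, mul_one, smul_comm, h w w₀]

/-- **Functions on the places that respect linear equivalence and whose `n`-th multiple is constant
are constant.** -/
theorem nprop {n : ℕ} (hn : n ≠ 0) {Q : Type} [AddCommGroup Q] (A : (PlaceOver ℂ E →₀ ℤ) →+ Q)
    (hA : ∀ F : E, A (div ℂ F) = 0)
    (h : ∀ w w' : PlaceOver ℂ E, (n : ℤ) • A (Finsupp.single w 1) =
      (n : ℤ) • A (Finsupp.single w' 1)) (w w' : PlaceOver ℂ E) :
    A (Finsupp.single w 1) = A (Finsupp.single w' 1) := by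
  obtain ⟨g, y, -, hy, hg⟩ := exists_div_eq hn
    (Finsupp.single w (1 : ℤ) - Finsupp.single w' 1) (by
      rw [map_sub, deg_single, deg_single, sub_self])
  have h1 := hA g
  rw [hg, map_sub, map_zsmul, nsmul_eq_deg A n h w y, hy, zero_smul, sub_zero, map_sub,
    sub_eq_zero] at h1
  exact h1

variable (E) in
/-- `HalfProp` holds for every function field. -/
theorem halfProp_all : H572.Half.HalfProp E := by
  intro Q _ A hA h w w'
  exact nprop (n := 2) two_ne_zero A hA h w w'

variable (E) in
/-- `ThirdProp` holds for every function field. -/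
theorem thirdProp_all : H72.ThirdProp E := by
  intro Q _ A hA h w w'
  exact nprop (n := 3) three_ne_zero A hA h w w'

end

end Vale.Agent.P297.H2
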