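import Vale.Agent.P297.H212.Cls
import Mathlib.LinearAlgebra.Lagrange
import Mathlib.Algebra.Polynomial.Bivariate

/-!
Functions on `ℂ^d` which are, on every line, polynomials of bounded degree away from a fixed
hypersurface, are polynomials there.  Also the degree bound for divisors of bivariate polynomials.
-/

open Polynomial

namespace Vale.Agent.P297.H2

/-- the restriction of a polynomial to the line `a + t v` -/
noncomputable def lineHom {d : ℕ} (a v : Fin d → ℂ) : MvPolynomial (Fin d) ℂ →ₐ[ℂ] ℂ[X] :=
  MvPolynomial.aeval fun i => C (a i) + X * C (v i)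

theorem eval_lineHom {d : ℕ} (a v : Fin d → ℂ) (g : MvPolynomial (Fin d) ℂ) (t : ℂ) :
    (lineHom a v g).eval t = MvPolynomial.eval (a + t • v) g := by
  have h : ((evalRingHom t).comp (lineHom a v).toRingHom) = MvPolynomial.eval (a + t • v) := by
    apply MvPolynomial.ringHom_ext
    · intro r
      simp [lineHom]
    · intro i
      simp only [lineHom, RingHom.coe_comp, AlgHom.toRingHom_eq_coe, RingHom.coe_coe,
        Function.comp_apply, MvPolynomial.aeval_X, coe_evalRingHom, eval_add, eval_mul, eval_C,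
        eval_X, MvPolynomial.eval_X, Pi.add_apply, Pi.smul_apply, smul_eq_mul]
  exact RingHom.congr_fun h g

theorem natDegree_lineHom_le {d : ℕ} (a v : Fin d → ℂ) (g : MvPolynomial (Fin d) ℂ) :
    (lineHom a v g).natDegree ≤ g.totalDegree := by
  have h := MvPolynomial.aeval_natDegree_le (m := g.totalDegree) (n := 1) g le_rfl
    (fun i => C (a i) + X * C (v i)) (fun i => by
      refine (natDegree_add_le _ _).trans ?_
      rw [natDegree_C]
      refine max_le (by omega) ?_
      refine natDegree_mul_le.trans ?_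
      rw [natDegree_C]
      exact (Nat.add_le_add_right natDegree_X_le 0))
  simpa [lineHom] using h

/-- `f` is, on every line, a polynomial of degree at most `D` away from `h = 0` -/
def LinePol {d : ℕ} (D : ℕ) (h : MvPolynomial (Fin d) ℂ) (f : (Fin d → ℂ) → ℂ) : Prop :=
  ∀ a v : Fin d → ℂ, ∃ p : ℂ[X], p.natDegree ≤ D ∧
    ∀ t : ℂ, MvPolynomial.eval (a + t • v) h ≠ 0 → f (a + t • v) = p.eval t

/-- two polynomials that agree away from the zeros of a nonzero polynomial agree -/
theorem eq_of_eval_eq {p q r : ℂ[X]} (hr : r ≠ 0) (h : ∀ t, r.eval t ≠ 0 → p.eval t = q.eval t) :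
    p = q := by
  have h1 : (p - q) * r = 0 := by
    apply Polynomial.funext
    intro t
    by_cases ht : r.eval t = 0
    · simp [ht]
    · simp [h t ht]
  rcases mul_eq_zero.1 h1 with h2 | h2
  · exact sub_eq_zero.1 h2
  · exact absurd h2 hr

theorem exists_eval_ne {d : ℕ} {h : MvPolynomial (Fin d) ℂ} (h0 : h ≠ 0) :
    ∃ a, MvPolynomial.eval a h ≠ 0 := by
  by_contra hc
  push Not at hc
  exact h0 (MvPolynomial.funext fun a => by rw [hc a, map_zero])

/-- the slice `x₀ = β` -/
noncomputable def slice {d : ℕ} (β : ℂ) (h : MvPolynomial (Fin (d + 1)) ℂ) :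
    MvPolynomial (Fin d) ℂ :=
  Polynomial.eval (MvPolynomial.C β) (MvPolynomial.finSuccEquiv ℂ d h)

theorem eval_slice {d : ℕ} (β : ℂ) (h : MvPolynomial (Fin (d + 1)) ℂ) (x : Fin d → ℂ) :
    MvPolynomial.eval x (slice β h) = MvPolynomial.eval (Fin.cons β x) h := by
  rw [MvPolynomial.eval_eq_eval_mv_eval', slice, Polynomial.eval_map, Polynomial.eval,
    Polynomial.hom_eval₂]
  simp

theorem exists_slices {d : ℕ} (D : ℕ) {h : MvPolynomial (Fin (d + 1)) ℂ} (h0 : h ≠ 0) :
    ∃ s : Finset ℂ, s.card = D + 1 ∧ ∀ β ∈ s, slice β h ≠ 0 := by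
  have h1 : MvPolynomial.finSuccEquiv ℂ d h ≠ 0 := by
    simpa using h0
  have hfin : {β : ℂ | slice β h = 0}.Finite := by
    have h2 : {β : ℂ | slice β h = 0} ⊆
        (MvPolynomial.C : ℂ → MvPolynomial (Fin d) ℂ) ⁻¹'
          ((MvPolynomial.finSuccEquiv ℂ d h).roots.toFinset : Set (MvPolynomial (Fin d) ℂ)) := by
      intro β hβ
      simp only [Set.mem_preimage, Finset.mem_coe, Multiset.mem_toFinset]
      rw [mem_roots h1]
      exact hβ
    exact (Set.Finite.preimage (MvPolynomial.C_injective _ _).injOn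
      (Finset.finite_toSet _)).subset h2
  obtain ⟨s, hs, hc⟩ := (hfin.infinite_compl).exists_subset_card_eq (D + 1)
  exact ⟨s, hc, fun β hβ => hs hβ⟩

/-- **Interpolation.** -/
theorem interp {d : ℕ} (D : ℕ) {h : MvPolynomial (Fin d) ℂ} (h0 : h ≠ 0)
    {f : (Fin d → ℂ) → ℂ} (hf : LinePol D h f) :
    ∃ g : MvPolynomial (Fin d) ℂ, ∀ a, MvPolynomial.eval a h ≠ 0 →
      f a = MvPolynomial.eval a g := by
  induction d with
  | zero =>
    refine ⟨MvPolynomial.C (f 0), fun a _ => ?_⟩
    rw [MvPolynomial.eval_C, Subsingleton.elim a 0]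
  | succ d ih =>
    obtain ⟨s, hs, hne⟩ := exists_slices D h0
    have hsl : ∀ β : ℂ, ∃ g : MvPolynomial (Fin d) ℂ, β ∈ s → ∀ x : Fin d → ℂ,
        MvPolynomial.eval x (slice β h) ≠ 0 → f (Fin.cons β x) = MvPolynomial.eval x g := by
      intro β
      by_cases hβ : β ∈ s
      · obtain ⟨g, hg⟩ := ih (h := slice β h) (hne β hβ) (f := fun x => f (Fin.cons β x)) (by
          intro a v
          obtain ⟨p, hp, hp'⟩ := hf (Fin.cons β a) (Fin.cons 0 v)
          refine ⟨p, hp, fun t ht => ?_⟩
          have h1 : (Fin.cons β (a + t • v) : Fin (d + 1) → ℂ) =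
              Fin.cons β a + t • Fin.cons 0 v := by
            funext i
            refine Fin.cases ?_ (fun j => ?_) i
            · simp
            · simp
          rw [eval_slice, h1] at ht
          change f (Fin.cons β (a + t • v)) = _
          rw [h1]
          exact hp' t ht)
        exact ⟨g, fun _ => hg⟩
      · exact ⟨0, fun h => absurd h hβ⟩
    choose g hg using hsl
    let G : MvPolynomial (Fin (d + 1)) ℂ := ∑ β ∈ s,
      Polynomial.aeval (MvPolynomial.X 0) (Lagrange.basis s id β) *
        MvPolynomial.rename Fin.succ (g β)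
    have hG : ∀ (y : ℂ) (x : Fin d → ℂ), MvPolynomial.eval (Fin.cons y x) G =
        ∑ β ∈ s, (Lagrange.basis s id β).eval y * MvPolynomial.eval x (g β) := by
      intro y x
      simp only [G, map_sum, map_mul]
      refine Finset.sum_congr rfl fun β _ => ?_
      congr 1
      · have h1 : MvPolynomial.eval (Fin.cons y x) (Polynomial.aeval
            (MvPolynomial.X (0 : Fin (d + 1)) : MvPolynomial (Fin (d + 1)) ℂ)
              (Lagrange.basis s id β)) =
            Polynomial.eval₂ ((MvPolynomial.eval (Fin.cons y x)).comp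
              (algebraMap ℂ (MvPolynomial (Fin (d + 1)) ℂ)))
              (MvPolynomial.eval (Fin.cons y x) (MvPolynomial.X (0 : Fin (d + 1))))
              (Lagrange.basis s id β) := by
          rw [Polynomial.aeval_def, Polynomial.hom_eval₂]
        rw [h1]
        simp only [MvPolynomial.eval_X, Fin.cons_zero]
        rw [Polynomial.eval, Polynomial.eval₂_eq_sum, Polynomial.eval₂_eq_sum]
        simp
      · rw [MvPolynomial.eval_rename]
        congr 1
    -- equality on an open set
    have hopen : ∀ (y : ℂ) (x : Fin d → ℂ), MvPolynomial.eval (Fin.cons y x) h ≠ 0 →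
        (∀ β ∈ s, MvPolynomial.eval x (slice β h) ≠ 0) →
        f (Fin.cons y x) = MvPolynomial.eval (Fin.cons y x) G := by
      intro y x hyx hx
      obtain ⟨p, hp, hp'⟩ := hf (Fin.cons 0 x) (Fin.cons 1 0)
      have hcons : ∀ t : ℂ, (Fin.cons 0 x + t • Fin.cons 1 0 : Fin (d + 1) → ℂ) =
          Fin.cons t x := by
        intro t
        funext i
        refine Fin.cases ?_ (fun j => ?_) i
        · simp
        · simp
      simp only [hcons] at hp'
      rw [hp' y hyx, hG]
      have hdeg : p.degree < s.card := by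
        rw [hs]
        refine lt_of_le_of_lt (Polynomial.degree_le_of_natDegree_le hp) ?_
        exact_mod_cast Nat.lt_succ_self D
      conv_lhs => rw [Lagrange.eq_interpolate (s := s) (v := id) Function.injective_id.injOn hdeg]
      rw [Lagrange.interpolate_apply, Polynomial.eval_finsetSum]
      refine Finset.sum_congr rfl fun β hβ => ?_
      rw [Polynomial.eval_mul, Polynomial.eval_C, mul_comm]
      congr 1
      have h1 := hx β hβ
      rw [← hg β hβ x h1, id, ← hp' β (by rwa [eval_slice] at h1)]
    -- extension by lines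
    let H : MvPolynomial (Fin (d + 1)) ℂ :=
      h * ∏ β ∈ s, MvPolynomial.rename Fin.succ (slice β h)
    have hH : H ≠ 0 := by
      refine mul_ne_zero h0 (Finset.prod_ne_zero_iff.2 fun β hβ => ?_)
      rw [Ne, ← map_zero (MvPolynomial.rename (R := ℂ) (Fin.succ : Fin d → Fin (d + 1)))]
      exact fun h1 => hne β hβ (MvPolynomial.rename_injective _ (Fin.succ_injective d) h1)
    have hopen' : ∀ b, MvPolynomial.eval b H ≠ 0 → f b = MvPolynomial.eval b G := by
      intro b hb
      rw [map_mul, map_prod] at hb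
      have hb1 : b = Fin.cons (b 0) (fun i => b i.succ) := (Fin.cons_self_tail b).symm
      have hb2 := left_ne_zero_of_mul hb
      have hb3 := Finset.prod_ne_zero_iff.1 (right_ne_zero_of_mul hb)
      rw [hb1] at hb2 ⊢
      refine hopen _ _ hb2 fun β hβ => ?_
      have h2 := hb3 β hβ
      rw [MvPolynomial.eval_rename] at h2
      exact h2
    refine ⟨G, fun a ha => ?_⟩
    obtain ⟨b, hb⟩ := exists_eval_ne hH
    obtain ⟨p, -, hp⟩ := hf a (b - a)
    have hr : lineHom a (b - a) H ≠ 0 := by
      intro h1
      have h2 := eval_lineHom a (b - a) H 1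
      rw [h1, eval_zero, one_smul, add_sub_cancel] at h2
      exact hb h2.symm
    have h3 : p = lineHom a (b - a) G := by
      refine eq_of_eval_eq hr fun t ht => ?_
      rw [eval_lineHom] at ht ⊢
      rw [← hopen' _ ht, hp t]
      rw [map_mul] at ht
      exact left_ne_zero_of_mul ht
    have h4 := hp 0 (by rwa [zero_smul, add_zero])
    rw [h3, eval_lineHom, zero_smul, add_zero] at h4
    exact h4

/-! ### the degree of a divisor -/

open Polynomial.Bivariate in
/-- the second degree of a bivariate polynomial -/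
theorem natDegree_swap_le {Φ : ℂ[X][X]} {D : ℕ} :
    (Polynomial.Bivariate.swap Φ).natDegree ≤ D ↔ ∀ i, (Φ.coeff i).natDegree ≤ D := by
  have hc : ∀ (Ψ : ℂ[X][X]) (i j : ℕ),
      ((Polynomial.Bivariate.swap Ψ).coeff i).coeff j = (Ψ.coeff j).coeff i := by
    intro Ψ i j
    induction Ψ using Polynomial.induction_on' with
    | add p q hp hq => simp only [map_add, coeff_add, hp, hq]
    | monomial n p =>
      induction p using Polynomial.induction_on' with
      | add p q hp hq =>
        rw [map_add, map_add]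
        simp only [coeff_add, hp, hq]
      | monomial m r =>
        rw [Polynomial.Bivariate.swap_monomial_monomial, coeff_monomial, coeff_monomial]
        by_cases h1 : m = i <;> by_cases h2 : n = j <;> simp [h1, h2, coeff_monomial]
  constructor
  · intro h i
    rw [natDegree_le_iff_coeff_eq_zero]
    intro N hN
    rw [← hc, coeff_eq_zero_of_natDegree_lt (lt_of_le_of_lt h hN), coeff_zero]
  · intro h
    rw [natDegree_le_iff_coeff_eq_zero]
    intro N hN
    ext j
    rw [hc, coeff_eq_zero_of_natDegree_lt (lt_of_le_of_lt (h j) hN), coeff_zero]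

theorem natDegree_coeff_le_of_dvd {Φ G : ℂ[X][X]} (h0 : Φ ≠ 0) (hG : G ∣ Φ) {D : ℕ}
    (h : ∀ i, (Φ.coeff i).natDegree ≤ D) (i : ℕ) : (G.coeff i).natDegree ≤ D := by
  refine natDegree_swap_le.1 ?_ i
  refine le_trans ?_ (natDegree_swap_le.2 h)
  obtain ⟨Q, rfl⟩ := hG
  have h1 : Polynomial.Bivariate.swap (G * Q) =
    Polynomial.Bivariate.swap G * Polynomial.Bivariate.swap Q := map_mul _ _ _
  rw [h1]
  have h2 : Polynomial.Bivariate.swap (R := ℂ) G ≠ 0 := by
    intro h3
    apply left_ne_zero_of_mul h0
    rw [← Polynomial.Bivariate.swap_swap_apply G, h3, map_zero]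
  have h4 : Polynomial.Bivariate.swap (R := ℂ) Q ≠ 0 := by
    intro h3
    apply right_ne_zero_of_mul h0
    rw [← Polynomial.Bivariate.swap_swap_apply Q, h3, map_zero]
  rw [natDegree_mul h2 h4]
  omega

end Vale.Agent.P297.H2
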