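import Vale.Agent.P297.H2.Conn
import Vale.Agent.P297.H2.HalfAll
import Vale.Agent.P297.H72.Plane
import Vale.Agent.P297.H212.Tower

/-!
Points with values in `ℂ` of the algebra `ℂ[x, θ]_h` of a primitive element `θ` over a polynomial
ring are joined by chains of curves.
-/

set_option linter.unusedSectionVars false
set_option linter.style.haveILetI false

open IntermediateField Polynomial

namespace Vale.Agent.P297.H2

open Vale.Agent.P297

section Ev

variable {d : ℕ} {B : Type} [CommRing B] [Algebra ℂ B]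

/-- evaluation of polynomials in `d + 1` variables, the last one being special -/
noncomputable def ev2 (y : Fin d → B) (β : B) : (MvPolynomial (Fin d) ℂ)[X] →ₐ[ℂ] B :=
  Polynomial.eval₂AlgHom (MvPolynomial.aeval y) β (fun _ => Commute.all _ _)

theorem ev2_apply (y : Fin d → B) (β : B) (u : (MvPolynomial (Fin d) ℂ)[X]) :
    ev2 y β u = u.eval₂ (MvPolynomial.aeval y).toRingHom β := rfl

theorem ev2_C (y : Fin d → B) (β : B) (g : MvPolynomial (Fin d) ℂ) :
    ev2 y β (C g) = MvPolynomial.aeval y g := by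
  rw [ev2_apply, eval₂_C]
  rfl

theorem ev2_X (y : Fin d → B) (β : B) : ev2 y β X = β := by
  rw [ev2_apply, eval₂_X]

/-- the localized polynomial ring -/
abbrev Loc2 (h : MvPolynomial (Fin d) ℂ) : Type :=
  Localization.Away (C h : (MvPolynomial (Fin d) ℂ)[X])

/-- evaluation of the localized polynomial ring -/
noncomputable def evL (h : MvPolynomial (Fin d) ℂ) (y : Fin d → B) (β : B)
    (hu : IsUnit (MvPolynomial.aeval y h)) : Loc2 h →ₐ[ℂ] B :=
  awayLift (ev2 y β) (C h) (by rwa [ev2_C])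

theorem evL_algebraMap (h : MvPolynomial (Fin d) ℂ) (y : Fin d → B) (β : B)
    (hu : IsUnit (MvPolynomial.aeval y h)) (u : (MvPolynomial (Fin d) ℂ)[X]) :
    evL h y β hu (algebraMap _ (Loc2 h) u) = ev2 y β u :=
  awayLift_algebraMap _ _ _ u

theorem loc2_surj {h : MvPolynomial (Fin d) ℂ} (l : Loc2 h) :
    ∃ (u : (MvPolynomial (Fin d) ℂ)[X]) (n : ℕ),
      l * algebraMap _ (Loc2 h) (C h) ^ n = algebraMap _ (Loc2 h) u := by
  obtain ⟨⟨u, ⟨_, n, rfl⟩⟩, hun⟩ :=
    IsLocalization.surj (Submonoid.powers (C h : (MvPolynomial (Fin d) ℂ)[X])) l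
  refine ⟨u, n, ?_⟩
  rw [← map_pow]
  exact hun

end Ev

section Line

variable {d : ℕ} {K : Type} [Field K] [Algebra ℂ K] (x : Fin d → K) (θ : K)
  (h : MvPolynomial (Fin d) ℂ) (hh : MvPolynomial.aeval x h ≠ 0)

/-- the algebra `ℂ[x, θ]_h` -/
noncomputable def algL : Subalgebra ℂ K := (evL h x θ hh.isUnit).range

theorem ev2_mem (u : (MvPolynomial (Fin d) ℂ)[X]) : ev2 x θ u ∈ algL x θ h hh :=
  ⟨algebraMap _ (Loc2 h) u, evL_algebraMap h x θ hh.isUnit u⟩

/-- the generators -/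
noncomputable def gen (u : (MvPolynomial (Fin d) ℂ)[X]) : algL x θ h hh :=
  ⟨ev2 x θ u, ev2_mem x θ h hh u⟩

theorem algL_surj (α : algL x θ h hh) :
    ∃ (u : (MvPolynomial (Fin d) ℂ)[X]) (n : ℕ), α * gen x θ h hh (C h) ^ n = gen x θ h hh u := by
  obtain ⟨α, l, hl⟩ := α
  obtain ⟨u, n, hun⟩ := loc2_surj l
  refine ⟨u, n, Subtype.ext ?_⟩
  have h1 := congrArg (evL h x θ hh.isUnit) hun
  rw [map_mul, map_pow, evL_algebraMap, evL_algebraMap] at h1
  change α * (ev2 x θ (C h)) ^ n = ev2 x θ u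
  rw [← h1, ← hl]
  rfl

variable (F : (MvPolynomial (Fin d) ℂ)[X]) (hF : ∀ u, ev2 x θ u = 0 → F ∣ u)

include hF in
/-- **homomorphisms from `ℂ[x, θ]_h`** -/
theorem exists_hom {B : Type} [CommRing B] [Algebra ℂ B] (y : Fin d → B) (β : B)
    (h0 : ev2 y β F = 0) (hu : IsUnit (MvPolynomial.aeval y h)) :
    ∃ ψ : algL x θ h hh →ₐ[ℂ] B, ∀ u, ψ (gen x θ h hh u) = ev2 y β u := by
  obtain ⟨ψ, hψ⟩ := exists_alg_lift (evL h x θ hh.isUnit).rangeRestrict
    (evL h x θ hh.isUnit).rangeRestrict_surjective (evL h y β hu) (by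
      intro l hl
      obtain ⟨u, n, hun⟩ := loc2_surj l
      have h1 := congrArg (evL h x θ hh.isUnit) hun
      have h2 : evL h x θ hh.isUnit l = 0 := congrArg Subtype.val hl
      rw [map_mul, h2, zero_mul, evL_algebraMap] at h1
      obtain ⟨q, hq⟩ := hF u h1.symm
      have h3 := congrArg (evL h y β hu) hun
      rw [map_mul, map_pow, evL_algebraMap, evL_algebraMap, hq, map_mul, h0, zero_mul,
        ev2_C] at h3
      exact (hu.pow n).mul_left_eq_zero.1 h3)
  refine ⟨ψ, fun u => ?_⟩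
  rw [← evL_algebraMap h y β hu u, ← hψ]
  congr 1
  exact Subtype.ext (evL_algebraMap h x θ hh.isUnit u).symm

/-- the surjection from the localized polynomial ring -/
noncomputable def toL : Loc2 h →ₐ[ℂ] algL x θ h hh := (evL h x θ hh.isUnit).rangeRestrict

theorem toL_surj : Function.Surjective (toL x θ h hh) :=
  (evL h x θ hh.isUnit).rangeRestrict_surjective

theorem toL_algebraMap (u : (MvPolynomial (Fin d) ℂ)[X]) :
    toL x θ h hh (algebraMap _ (Loc2 h) u) = gen x θ h hh u :=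
  Subtype.ext (evL_algebraMap h x θ hh.isUnit _)

theorem gen_h_isUnit : IsUnit (gen x θ h hh (C h)) := by
  rw [← toL_algebraMap]
  exact (IsLocalization.Away.algebraMap_isUnit _).map (toL x θ h hh)

theorem algL_fg : (algL x θ h hh).FG := by
  have h1 : Algebra.FiniteType ℂ (Loc2 h) :=
    Algebra.FiniteType.trans (S := (MvPolynomial (Fin d) ℂ)[X]) inferInstance
      (IsLocalization.finiteType_of_monoid_fg
        (Submonoid.powers (C h : (MvPolynomial (Fin d) ℂ)[X])) _)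
  have h2 : Algebra.FiniteType ℂ (algL x θ h hh) := h1.of_surjective (toL x θ h hh)
    (toL_surj x θ h hh)
  exact (Subalgebra.fg_iff_finiteType _).2 h2

theorem hom_ext {B : Type} [CommRing B] [Algebra ℂ B] {ψ ψ' : algL x θ h hh →ₐ[ℂ] B}
    (he : ∀ u, ψ (gen x θ h hh u) = ψ' (gen x θ h hh u)) : ψ = ψ' := by
  apply AlgHom.ext
  intro α
  obtain ⟨u, n, hun⟩ := algL_surj x θ h hh α
  have h1 := congrArg ψ hun
  have h2 := congrArg ψ' hun
  rw [map_mul, map_pow] at h1 h2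
  rw [he u, ← h2, he (C h)] at h1
  exact ((gen_h_isUnit x θ h hh).map ψ').pow n |>.mul_right_cancel h1

end Line

section Ev'

variable {d : ℕ} {B : Type} [CommRing B] [Algebra ℂ B]

theorem hom_eq_ev2 (φ : (MvPolynomial (Fin d) ℂ)[X] →ₐ[ℂ] B) (y : Fin d → B) (β : B)
    (hy : ∀ i, φ (C (MvPolynomial.X i)) = y i) (hβ : φ X = β) : φ = ev2 y β := by
  have h1 : φ.comp (CAlgHom (R := ℂ)) = (ev2 y β).comp (CAlgHom (R := ℂ)) := by
    apply MvPolynomial.algHom_ext
    intro i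
    change φ (C (MvPolynomial.X i)) = ev2 y β (C (MvPolynomial.X i))
    rw [ev2_C, MvPolynomial.aeval_X, hy]
  have h2 : ∀ g : MvPolynomial (Fin d) ℂ, φ (C g) = ev2 y β (C g) := fun g =>
    DFunLike.congr_fun h1 g
  apply AlgHom.ext
  intro u
  induction u using Polynomial.induction_on' with
  | add p q hp hq => rw [map_add, map_add, hp, hq]
  | monomial n g =>
    rw [← C_mul_X_pow_eq_monomial, map_mul, map_mul, map_pow, map_pow, h2, hβ, ev2_X]

theorem ev2_map {B' : Type} [CommRing B'] [Algebra ℂ B'] (g : B →ₐ[ℂ] B') (y : Fin d → B) (β : B)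
    (u : (MvPolynomial (Fin d) ℂ)[X]) : g (ev2 y β u) = ev2 (fun i => g (y i)) (g β) u := by
  have h1 := hom_eq_ev2 (g.comp (ev2 y β)) (fun i => g (y i)) (g β)
    (fun i => by
      change g (ev2 y β (C (MvPolynomial.X i))) = _
      rw [ev2_C, MvPolynomial.aeval_X]) (by
      change g (ev2 y β X) = _
      rw [ev2_X])
  exact DFunLike.congr_fun h1 u

theorem ev2_eq (a : Fin d → ℂ) (τ : ℂ) (u : (MvPolynomial (Fin d) ℂ)[X]) :
    ev2 a τ u = (u.map (MvPolynomial.eval a)).eval τ := by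
  rw [ev2_apply, eval_map]
  congr 1

theorem aeval_eq_lineHom (a v : Fin d → ℂ) (z : B) (g : MvPolynomial (Fin d) ℂ) :
    MvPolynomial.aeval (fun i => algebraMap ℂ B (a i) + z * algebraMap ℂ B (v i)) g =
      Polynomial.aeval z (lineHom a v g) := by
  have h1 : (MvPolynomial.aeval (fun i => algebraMap ℂ B (a i) + z * algebraMap ℂ B (v i)) :
      MvPolynomial (Fin d) ℂ →ₐ[ℂ] B) = (Polynomial.aeval z).comp (lineHom a v) := by
    apply MvPolynomial.algHom_ext
    intro i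
    rw [MvPolynomial.aeval_X, AlgHom.comp_apply, lineHom, MvPolynomial.aeval_X, map_add, map_mul,
      aeval_X, aeval_C, aeval_C]
  exact DFunLike.congr_fun h1 g

theorem ev2_line (a v : Fin d → ℂ) (z l : B) (u : (MvPolynomial (Fin d) ℂ)[X]) :
    ev2 (fun i => algebraMap ℂ B (a i) + z * algebraMap ℂ B (v i)) l u =
      H72.ev z l (u.map (lineHom a v).toRingHom) := by
  induction u using Polynomial.induction_on' with
  | add p q hp hq => rw [map_add, hp, hq, Polynomial.map_add, map_add]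
  | monomial n g =>
    rw [← C_mul_X_pow_eq_monomial, map_mul, map_pow, ev2_C, ev2_X, Polynomial.map_mul,
      Polynomial.map_pow, map_X, map_C, map_mul, map_pow, H72.ev_X, H72.ev_C, aeval_eq_lineHom]
    rfl

theorem ev_eq (t τ : ℂ) (G : ℂ[X][X]) : H72.ev t τ G = (G.map (evalRingHom t)).eval τ := by
  induction G using Polynomial.induction_on' with
  | add p q hp hq => rw [map_add, hp, hq, Polynomial.map_add, eval_add]
  | monomial n g =>
    rw [← C_mul_X_pow_eq_monomial, map_mul, map_pow, H72.ev_X, H72.ev_C, Polynomial.map_mul,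
      Polynomial.map_pow, map_X, map_C, eval_mul, eval_pow, eval_X, eval_C]
    rfl

end Ev'

section Curve

variable {d : ℕ} {K : Type} [Field K] [Algebra ℂ K] (x : Fin d → K) (θ : K)
  (h : MvPolynomial (Fin d) ℂ) (hh : MvPolynomial.aeval x h ≠ 0)
  (F : (MvPolynomial (Fin d) ℂ)[X]) (hF : ∀ u, ev2 x θ u = 0 → F ∣ u)

include hF in
/-- **the curve of an irreducible component of a line section** -/
theorem line_curve (a v : Fin d → ℂ) (hv : v ≠ 0) (G : ℂ[X][X]) (hG : G.Monic)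
    (hGi : Irreducible G) (hGF : G ∣ F.map (lineHom a v).toRingHom) (t₀ : ℂ)
    (ht₀ : MvPolynomial.eval (a + t₀ • v) h ≠ 0) :
    ∃ (E : Type) (_ : Field E) (_ : Algebra ℂ E) (_ : IsFF ℂ E) (m : algL x θ h hh →ₐ[ℂ] E),
      ∀ (t τ : ℂ), MvPolynomial.eval (a + t • v) h ≠ 0 → (G.map (evalRingHom t)).IsRoot τ →
        ∀ ξ : algL x θ h hh →ₐ[ℂ] ℂ, (∀ u, ξ (gen x θ h hh u) = ev2 (a + t • v) τ u) →
          ∃ w : PlaceOver ℂ E, ∃ hw : ∀ α, m α ∈ w.1.ring, ∀ α, evalAt w ⟨m α, hw α⟩ = ξ α := by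
  have hdeg : 0 < G.natDegree := by
    rw [Nat.pos_iff_ne_zero]
    intro h0
    exact hGi.not_isUnit (by rw [hG.natDegree_eq_zero.1 h0]; exact isUnit_one)
  obtain ⟨z, l, hz, hzl⟩ := H72.exists_plane G hGi hdeg
  haveI hE : IsFF ℂ (IntermediateField.adjoin ℂ ({z, l} : Set H72.Om)) :=
    H72.isFF_adjoin_om z hz {z, l} (by simp) (IntermediateField.subset_adjoin ℂ _ (by simp))
  let E := IntermediateField.adjoin ℂ ({z, l} : Set H72.Om)
  let z' : E := ⟨z, IntermediateField.subset_adjoin ℂ _ (by simp)⟩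
  let l' : E := ⟨l, IntermediateField.subset_adjoin ℂ _ (by simp)⟩
  have hzl' : ∀ p : ℂ[X][X], H72.ev z' l' p = 0 ↔ G ∣ p := by
    intro p
    rw [← hzl, ← map_eq_zero_iff E.val E.val.toRingHom.injective]
    have h1 : E.val.comp (H72.ev z' l') = H72.ev z l := by
      apply H72.ev_hom_ext
      · rw [AlgHom.comp_apply, H72.ev_CX, H72.ev_CX]
        rfl
      · rw [AlgHom.comp_apply, H72.ev_X, H72.ev_X]
        rfl
    rw [← h1]
    rfl
  have hz' : ∀ g : ℂ[X], g ≠ 0 → Polynomial.aeval z' g ≠ 0 := by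
    intro g hg h0
    rw [← H72.ev_C z' l', hzl'] at h0
    have h1 := natDegree_le_of_dvd h0 (by simpa using hg)
    rw [natDegree_C] at h1
    omega
  let y : Fin d → E := fun i => algebraMap ℂ E (a i) + z' * algebraMap ℂ E (v i)
  have hyh : IsUnit (MvPolynomial.aeval y h) := by
    rw [isUnit_iff_ne_zero, aeval_eq_lineHom]
    apply hz'
    intro h0
    apply ht₀
    rw [← eval_lineHom, h0, eval_zero]
  have hyF : ev2 y l' F = 0 := by
    rw [ev2_line, hzl']
    exact hGF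
  obtain ⟨m, hm⟩ := exists_hom x θ h hh F hF y l' hyF hyh
  refine ⟨E, inferInstance, inferInstance, hE, m, fun t τ ht hτ ξ hξ => ?_⟩
  have hk : ∀ α, m α = 0 → ξ α = 0 := by
    intro α hα
    obtain ⟨u, n, hun⟩ := algL_surj x θ h hh α
    have h1 := congrArg m hun
    rw [map_mul, hα, zero_mul, hm, ev2_line] at h1
    obtain ⟨q, hq⟩ := (hzl' _).1 h1.symm
    have h2 := congrArg ξ hun
    rw [map_mul, map_pow, hξ, hξ, ev2_C, ev2_eq] at h2
    have h3 : (u.map (MvPolynomial.eval (a + t • v))) =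
        (u.map (lineHom a v).toRingHom).map (evalRingHom t) := by
      rw [Polynomial.map_map]
      congr 1
      exact (RingHom.ext fun x => eval_lineHom a v x t).symm
    rw [h3, hq, Polynomial.map_mul, eval_mul, hτ.eq_zero, zero_mul] at h2
    rcases mul_eq_zero.1 h2 with h4 | h4
    · exact h4
    · exact absurd h4 (pow_ne_zero n ht)
  obtain ⟨i, hi⟩ : ∃ i, v i ≠ 0 := by
    by_contra hc
    push Not at hc
    exact hv (funext hc)
  refine H212.exists_place_point m ξ hk (gen x θ h hh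
    (C (MvPolynomial.X i - MvPolynomial.C (a i + t * v i)))) ?_ ?_
  · rw [hm, ev2_C, map_sub, MvPolynomial.aeval_X, MvPolynomial.aeval_C]
    have h1 : y i - algebraMap ℂ E (a i + t * v i) =
        Polynomial.aeval z' ((X - C t) * C (v i)) := by
      simp only [y, map_add, map_mul, map_sub, aeval_X, aeval_C]
      ring
    rw [h1]
    apply hz'
    exact mul_ne_zero (X_sub_C_ne_zero t) (by simpa using hi)
  · rw [hξ, ev2_C, map_sub, MvPolynomial.aeval_X, MvPolynomial.aeval_C]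
    simp

include hF in
/-- **Functions on the points that are constant on curves are constant.** -/
theorem const_of_curves (hFm : F.Monic) (hFi : Irreducible F) (hF0 : ev2 x θ F = 0) {V : Type*}
    (φ : (algL x θ h hh →ₐ[ℂ] ℂ) → V)
    (hφ : ∀ (E : Type) (_ : Field E) (_ : Algebra ℂ E) (_ : IsFF ℂ E)
      (m : algL x θ h hh →ₐ[ℂ] E) (ξ₁ ξ₂ : algL x θ h hh →ₐ[ℂ] ℂ) (w₁ w₂ : PlaceOver ℂ E)
      (hw₁ : ∀ α, m α ∈ w₁.1.ring) (hw₂ : ∀ α, m α ∈ w₂.1.ring),
      (∀ α, evalAt w₁ ⟨m α, hw₁ α⟩ = ξ₁ α) → (∀ α, evalAt w₂ ⟨m α, hw₂ α⟩ = ξ₂ α) → φ ξ₁ = φ ξ₂)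
    (ξ₁ ξ₂ : algL x θ h hh →ₐ[ℂ] ℂ) : φ ξ₁ = φ ξ₂ := by
  classical
  -- coordinates
  have hco : ∀ ξ : algL x θ h hh →ₐ[ℂ] ℂ, ∃ (a : Fin d → ℂ) (τ : ℂ),
      (∀ u, ξ (gen x θ h hh u) = ev2 a τ u) ∧ MvPolynomial.eval a h ≠ 0 ∧
        (F.map (MvPolynomial.eval a)).IsRoot τ := by
    intro ξ
    let g : (MvPolynomial (Fin d) ℂ)[X] →ₐ[ℂ] algL x θ h hh :=
      (ev2 x θ).codRestrict (algL x θ h hh) (ev2_mem x θ h hh)
    have hg : ∀ u, ξ (gen x θ h hh u) = ev2 (fun i => ξ (g (C (MvPolynomial.X i)))) (ξ (g X)) u :=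
      fun u => DFunLike.congr_fun (hom_eq_ev2 (ξ.comp g) _ _ (fun i => rfl) rfl) u
    refine ⟨fun i => ξ (g (C (MvPolynomial.X i))), ξ (g X), hg, ?_, ?_⟩
    · have h1 := (gen_h_isUnit x θ h hh).map ξ
      rw [hg, ev2_C] at h1
      exact h1.ne_zero
    · have h1 : gen x θ h hh F = 0 := Subtype.ext hF0
      have h2 := hg F
      rw [h1, map_zero, ev2_eq] at h2
      exact h2.symm
  let c : (Fin d → ℂ) → ℂ → Option V := fun a τ =>
    if H : ∃ ξ : algL x θ h hh →ₐ[ℂ] ℂ, ∀ u, ξ (gen x θ h hh u) = ev2 a τ u then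
      some (φ H.choose) else none
  have hc : ∀ (a : Fin d → ℂ) (τ : ℂ) (ξ : algL x θ h hh →ₐ[ℂ] ℂ),
      (∀ u, ξ (gen x θ h hh u) = ev2 a τ u) → c a τ = some (φ ξ) := by
    intro a τ ξ hξ
    have H : ∃ ξ : algL x θ h hh →ₐ[ℂ] ℂ, ∀ u, ξ (gen x θ h hh u) = ev2 a τ u := ⟨ξ, hξ⟩
    have h1 : c a τ = some (φ H.choose) := dif_pos H
    rw [h1]
    congr 2
    apply hom_ext
    intro u
    rw [H.choose_spec, hξ]
  obtain ⟨a₁, τ₁, h₁, h₁', h₁''⟩ := hco ξ₁
  obtain ⟨a₂, τ₂, h₂, h₂', h₂''⟩ := hco ξ₂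
  have hfin : c a₁ τ₁ = c a₂ τ₂ := by
    have hh0 : h ≠ 0 := by
      rintro rfl
      exact hh (map_zero _)
    refine conn hFm hFi hh0 c ?_ h₁' h₂' h₁'' h₂''
    intro a v hv G hG hGi hGF t t' τ τ' ht ht' hτ hτ'
    obtain ⟨E, i1, i2, i3, m, hm⟩ := line_curve x θ h hh F hF a v hv G hG hGi hGF t ht
    have hex : ∀ t τ : ℂ, MvPolynomial.eval (a + t • v) h ≠ 0 →
        (G.map (evalRingHom t)).IsRoot τ →
        ∃ ξ : algL x θ h hh →ₐ[ℂ] ℂ, ∀ u, ξ (gen x θ h hh u) = ev2 (a + t • v) τ u := by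
      intro t τ ht hτ
      refine exists_hom x θ h hh F hF (a + t • v) τ ?_ ?_
      · rw [ev2_eq]
        have h3 : (F.map (MvPolynomial.eval (a + t • v))) =
            (F.map (lineHom a v).toRingHom).map (evalRingHom t) := by
          rw [Polynomial.map_map]
          congr 1
          exact (RingHom.ext fun x => eval_lineHom a v x t).symm
        obtain ⟨q, hq⟩ := hGF
        rw [h3, hq, Polynomial.map_mul, eval_mul, hτ.eq_zero, zero_mul]
      · rw [isUnit_iff_ne_zero]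
        exact ht
    obtain ⟨ξ, hξ⟩ := hex t τ ht hτ
    obtain ⟨ξ', hξ'⟩ := hex t' τ' ht' hτ'
    rw [hc _ _ ξ hξ, hc _ _ ξ' hξ']
    obtain ⟨w, hw, hwe⟩ := hm t τ ht hτ ξ hξ
    obtain ⟨w', hw', hwe'⟩ := hm t' τ' ht' hτ' ξ' hξ'
    rw [hφ E i1 i2 i3 m ξ ξ' w w' hw hw' hwe hwe']
  rw [hc _ _ ξ₁ h₁, hc _ _ ξ₂ h₂] at hfin
  exact Option.some.inj hfin

end Curve

end Vale.Agent.P297.H2
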