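import Vale.Agent.P297.H2.Line
import Mathlib.RingTheory.NoetherNormalization
import Mathlib.FieldTheory.Minpoly.IsIntegrallyClosed
import Mathlib.FieldTheory.PrimitiveElement

/-!
An affine domain over `ℂ` is contained in an algebra `ℂ[x, θ]_h` inside its field of fractions.
-/

set_option linter.unusedSectionVars false
set_option linter.style.haveILetI false

open IntermediateField Polynomial

namespace Vale.Agent.P297.H2

open Vale.Agent.P297

theorem mem_algL {d : ℕ} {K : Type} [Field K] [Algebra ℂ K] (x : Fin d → K) (θ : K)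
    (h : MvPolynomial (Fin d) ℂ) (hh : MvPolynomial.aeval x h ≠ 0) {c : K}
    (h₁ : MvPolynomial (Fin d) ℂ) (hd : h₁ ∣ h) (u : (MvPolynomial (Fin d) ℂ)[X])
    (hu : MvPolynomial.aeval x h₁ * c = ev2 x θ u) : c ∈ algL x θ h hh := by
  obtain ⟨h₂, rfl⟩ := hd
  have h3 : ev2 x θ (C (h₁ * h₂)) * ((toL x θ (h₁ * h₂) hh
      (IsLocalization.Away.invSelf (C (h₁ * h₂) : (MvPolynomial (Fin d) ℂ)[X])) : _) : K) = 1 := by
    have h4 : toL x θ (h₁ * h₂) hh (algebraMap _ (Loc2 (h₁ * h₂)) (C (h₁ * h₂))) *
        toL x θ (h₁ * h₂) hh (IsLocalization.Away.invSelf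
          (C (h₁ * h₂) : (MvPolynomial (Fin d) ℂ)[X])) = 1 := by
      rw [← map_mul, IsLocalization.Away.mul_invSelf, map_one]
    rw [toL_algebraMap] at h4
    exact congrArg Subtype.val h4
  have h5 : c = ev2 x θ (u * C h₂) * ((toL x θ (h₁ * h₂) hh
      (IsLocalization.Away.invSelf (C (h₁ * h₂) : (MvPolynomial (Fin d) ℂ)[X])) : _) : K) := by
    rw [map_mul, ← hu, ev2_C]
    rw [ev2_C, map_mul] at h3
    linear_combination (-c) * h3
  rw [h5]
  exact mul_mem (ev2_mem x θ _ hh _) (Subtype.property _)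

/-- **Presentation of an affine domain.** -/
theorem exists_pres (C' : Type) [CommRing C'] [IsDomain C'] [Algebra ℂ C']
    [Algebra.FiniteType ℂ C'] :
    ∃ (d : ℕ) (x : Fin d → FractionRing C') (θ : FractionRing C') (h : MvPolynomial (Fin d) ℂ)
      (hh : MvPolynomial.aeval x h ≠ 0) (F : (MvPolynomial (Fin d) ℂ)[X]),
      F.Monic ∧ Irreducible F ∧ (∀ u, ev2 x θ u = 0 ↔ F ∣ u) ∧
        ∀ c : C', algebraMap C' (FractionRing C') c ∈ algL x θ h hh := by
  classical
  obtain ⟨d, g, hg, hgf⟩ := exists_finite_inj_algHom_of_fg ℂ C'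
  let P := MvPolynomial (Fin d) ℂ
  letI iPC : Algebra P C' := g.toRingHom.toAlgebra
  haveI : Module.Finite P C' := hgf
  have hinj : Function.Injective (algebraMap P C') := hg
  haveI : FaithfulSMul P C' := (faithfulSMul_iff_algebraMap_injective P C').2 hinj
  haveI : IsScalarTower ℂ P C' := IsScalarTower.of_algebraMap_eq fun a => (g.commutes a).symm
  let N := FractionRing C'
  let L := FractionRing P
  haveI : FaithfulSMul P N := by
    rw [faithfulSMul_iff_algebraMap_injective, IsScalarTower.algebraMap_eq P C' N]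
    exact (IsFractionRing.injective C' N).comp hinj
  haveI : Module.IsTorsionFree P C' := inferInstance
  haveI : Module.IsTorsionFree P N := inferInstance
  letI iLN : Algebra L N := FractionRing.liftAlgebra P N
  haveI : IsScalarTower P L N := FractionRing.isScalarTower_liftAlgebra P N
  haveI : FiniteDimensional L N := inferInstance
  haveI : CharZero L := inferInstance
  haveI : Algebra.IsSeparable L N := inferInstance
  obtain ⟨α, hα⟩ := Field.exists_primitive_element L N
  have hαP : IsAlgebraic P α := by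
    rw [IsFractionRing.isAlgebraic_iff P L N]
    exact Algebra.IsAlgebraic.isAlgebraic α
  obtain ⟨y, hy, hθ⟩ := hαP.exists_integral_multiple
  let θ : N := y • α
  have hyN : algebraMap P N y ≠ 0 := by
    rw [Ne, map_eq_zero_iff _ (FaithfulSMul.algebraMap_injective P N)]
    exact hy
  have hθtop : L⟮θ⟯ = ⊤ := by
    rw [eq_top_iff, ← hα, IntermediateField.adjoin_simple_le_iff]
    have h1 : α = (algebraMap L N (algebraMap P L y))⁻¹ * θ := by
      rw [← IsScalarTower.algebraMap_apply P L N]
      simp only [θ, Algebra.smul_def]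
      rw [← mul_assoc, inv_mul_cancel₀ hyN, one_mul]
    rw [h1]
    exact mul_mem (inv_mem (L⟮θ⟯.algebraMap_mem _)) (IntermediateField.mem_adjoin_simple_self L θ)
  let x : Fin d → N := fun i => algebraMap C' N (g (MvPolynomial.X i))
  have hx : ∀ u : P, MvPolynomial.aeval x u = algebraMap P N u := by
    intro u
    have h1 : (MvPolynomial.aeval x : P →ₐ[ℂ] N) = (IsScalarTower.toAlgHom ℂ C' N).comp g := by
      apply MvPolynomial.algHom_ext
      intro i
      rw [MvPolynomial.aeval_X]
      rfl
    rw [h1, IsScalarTower.algebraMap_apply P C' N]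
    rfl
  have hev : ∀ u : P[X], ev2 x θ u = Polynomial.aeval θ u := by
    intro u
    rw [ev2_apply, Polynomial.aeval_def]
    congr 1
    exact RingHom.ext hx
  -- denominators
  have hden : ∀ c : N, ∃ (h₁ : P) (u : P[X]), h₁ ≠ 0 ∧
      MvPolynomial.aeval x h₁ * c = ev2 x θ u := by
    intro c
    have hc : c ∈ L⟮θ⟯.toSubalgebra := by
      rw [hθtop]
      exact trivial
    rw [IntermediateField.adjoin_simple_toSubalgebra_of_isAlgebraic
      (Algebra.IsAlgebraic.isAlgebraic θ), Algebra.adjoin_singleton_eq_range_aeval] at hc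
    obtain ⟨q, hq⟩ := hc
    obtain ⟨b, hb, hbq⟩ := IsLocalization.integerNormalization_spec (nonZeroDivisors P) q
    refine ⟨b, IsLocalization.integerNormalization (nonZeroDivisors P) q,
      nonZeroDivisors.ne_zero hb, ?_⟩
    rw [hx, hev, ← Polynomial.aeval_map_algebraMap L, hbq, ← hq,
      ← IsScalarTower.algebraMap_smul L b q, map_smul, Algebra.smul_def,
      ← IsScalarTower.algebraMap_apply P L N]
    rfl
  obtain ⟨s, hs⟩ := (inferInstance : Algebra.FiniteType ℂ C').out
  choose hd hu hd0 hde using hden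
  let h : P := ∏ c ∈ s, hd (algebraMap C' N c)
  have hh0 : h ≠ 0 := Finset.prod_ne_zero_iff.2 fun c _ => hd0 _
  have hh : MvPolynomial.aeval x h ≠ 0 := by
    rw [hx, Ne, map_eq_zero_iff _ (FaithfulSMul.algebraMap_injective P N)]
    exact hh0
  refine ⟨d, x, θ, h, hh, minpoly P θ, minpoly.monic hθ, minpoly.irreducible hθ, fun u => ?_, ?_⟩
  · rw [hev]
    exact minpoly.isIntegrallyClosed_dvd_iff hθ u
  · have h1 : (Algebra.adjoin ℂ (s : Set C')).map (IsScalarTower.toAlgHom ℂ C' N) ≤
        algL x θ h hh := by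
      rw [AlgHom.map_adjoin, Algebra.adjoin_le_iff]
      rintro _ ⟨c, hc, rfl⟩
      exact mem_algL x θ h hh _ (Finset.dvd_prod_of_mem _ hc) _ (hde _)
    rw [hs] at h1
    intro c
    exact h1 ⟨c, trivial, rfl⟩

end Vale.Agent.P297.H2
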